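import Crest.Agent.X212.Hdg40.Op
import Crest.Agent.X212.Op78.Slc
import Crest.Agent.X212.Cyl58.PsJ

/-! X212 / RAD-HDG (helper40): the operator `a ↦ (div a + r a₀, d⁺ a)` on a cylinder. -/

set_option autoImplicit false
set_option linter.unusedSectionVars false
noncomputable section
open scoped Manifold ContDiff Topology InnerProductSpace
open MeasureTheory Function Filter Finset

namespace Crest.Agent.X212.Hdg40
open An hiding Cfg Pt
open Sob92 Map77 Cyf70 Qab60 Sw Sw.En3
open Ell97 hiding pj cut pj_apply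
open Num57 (V1 V2 W2 hop hs hp)
open Wz78 (dvg SA d1)
open Op78 (sl0 app_sop)
open Dl42 (sd Nul)

variable {κ lam ν : Type} [Fintype κ] [Fintype lam] [Fintype ν] [DecidableEq ν]

section bg
variable {E : Type} [NormedAddCommGroup E] [NormedSpace ℝ E] [FiniteDimensional ℝ E]
  [MeasurableSpace E] [BorelSpace E]
  {HM : Type} [TopologicalSpace HM] {I : ModelWithCorners ℝ E HM} [I.Boundaryless]
  {M : Type} [TopologicalSpace M] [ChartedSpace HM M] [IsManifold I ∞ M] [T2Space M]
  [MeasurableSpace M] [BorelSpace M] [SecondCountableTopology M]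
  {nc : ℕ} {b : Bg I M κ lam ν nc} (hb : b.OK)
include hb

theorem p1_eq : b.p1 = hp b.F := funext fun x => by rw [hp, hb.G.P]; rfl

theorem p2_eq : b.p2 = hs b.F b.B.o := funext fun x => by rw [hs, hb.G.P]; rfl

theorem tam (h4 : Module.finrank ℝ E = 4) : Tam b.F b.B.o :=
  ⟨.of_base h4 hb.B hb.G, hb.tame, hb.co⟩

omit hb in
theorem dd_eq {u : M → V1 (Option κ)} (hu : Sm I u) (x : M) : dd b.F u x =
    WithLp.toLp 2 fun s => d1 I b.F.e b.F.c (fun i y => u y i) s.1 s.2 x := fm_ext fun s =>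
  dd_apply hu x s

/-- the curvature of a reducible configuration -/
theorem eC_red {a : Option κ → M → ℝ} (ha : ∀ i, Sm I (a i)) (x : M) : b.eC ⟨a, 0⟩ x =
    b.eC ⟨0, 0⟩ x + b.p2 x (WithLp.toLp 2 fun s => d1 I b.F.e b.F.c a s.1 s.2 x) := by
  have z : b.qd x 0 0 = 0 := fm_ext fun s => by simp [Bg.qd]
  have : b.fc ⟨a, 0⟩ x = b.fc ⟨0, 0⟩ x + WithLp.toLp 2 fun s => d1 I b.F.e b.F.c a s.1 s.2 x :=
    fm_ext fun s => Cyl58.fc_eq hb (fun i => ha i x) s
  simp only [Bg.eC, Pi.zero_apply, z, smul_zero, sub_zero, this, map_add]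
  abel

end bg

variable (e : En3 κ lam ν) (r : ℝ)

/-- the operator on the cylinder -/
def hz : Op (e.Y.M × ℝ) (Option κ) (V1 (Option κ)) (W2 (Option κ)) :=
  hm e.D.Z e.D.B.o fun _ => r

theorem cyo_hz : cyo (sl0 (hz e r)) = hz e r := by
  have h := fun x : e.Y.M × ℝ => hm_pt (F := e.D.Z) (F' := e.D.Z) (o := e.D.B.o) (o' := e.D.B.o)
    (m := fun _ => r) (m' := fun _ => r) (x := (x.1, 0)) (x' := x)
    (fun a b => by cases a <;> cases b <;> rfl) (fun _ _ _ _ => rfl)
    (fun a b k => by cases a <;> cases b <;> cases k <;> rfl) fun a => by cases a <;> rfl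
  change (⟨_, _, _, _⟩ : Op _ _ _ _) = ⟨(hz e r).p, (hz e r).q, (hz e r).σ, (hz e r).B⟩
  congr 1
  exacts [funext fun x => (h x).1, funext fun x => (h x).2.1,
    funext fun a => funext fun x => (h x).2.2.1 a, funext fun x => (h x).2.2.2 rfl]

variable {e r} (he : e.OK) {u u' : e.Y.M → V1 (Option κ)}
include he

theorem tamZ : Tam e.D.Z e.D.B.o := tam he.cyl e.Z.dim

omit he in
theorem sec_ap (u : Sec e.Y.I (sl0 (hz e r)).p) : (∀ i, Sm e.Y.I fun y => u.1 y i) ∧
    ∀ k y, ∑ j, e.D.F.P k j y * u.1 y (some j) = u.1 y (some k) :=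
  ⟨fun i => sm_ap u.2.1 i, fun k y => by
    have : hp e.D.Z (y, 0) (u.1 y) (some k) = _ := congrArg (· (some k)) (u.2.2.2 y)
    simpa [hp, Num57.p1_apply, Cyf70.cyl, cP] using this⟩

/-- **the slice operator** -/
theorem sop_ap (u : Sec e.Y.I (sl0 (hz e r)).p) (y : e.Y.M) :
    (sop (sl0 (hz e r))).app e.D.F u.1 y none =
      dvg e.Y.I e.D.F.e e.D.F.dv (fun k y => u.1 y (some k)) y + r * u.1 y none ∧
    ∀ k, (sop (sl0 (hz e r))).app e.D.F u.1 y (some k) =
      -e.D.F.D k (fun y => u.1 y none) y + sd e (fun k y => u.1 y (some k)) k y / 2 := by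
  have t := (tamZ he).ok
  obtain ⟨s, p⟩ := sec_ap u
  have k : ∀ c, (sop (sl0 (hz e r))).app e.D.F u.1 y c = e.D.Z.P none c (y, 0) *
      (dvg (IC e.Y.I) e.D.Z.e e.D.Z.dv (fun a x => u.1 x.1 a) (y, 0) + r * u.1 y none) +
        2 * e.cyl.p2 (y, 0) (WithLp.toLp 2 fun s => d1 (IC e.Y.I) e.cyl.F.e e.cyl.F.c
          (fun a x => u.1 x.1 a) s.1 s.2 (y, 0)) (none, c) := fun c => by
    refine ((congrArg (· c) (app_sop (hz e r) u.2.1 y)).trans (tr_σ t _ _ _ _)).trans ?_
    rw [← dd_eq (b := e.cyl) (sm_fst u.2.1), p2_eq he.cyl]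
    exact congrArg₂ (fun a b => _ * a + 2 * b) (f2_hm (sm_fst u.2.1) _) (congrArg (· (none, c))
      ((congrArg _ (s2_hm t (sm_fst u.2.1) _)).trans (hs_idem t _ _)))
  refine ⟨(k none).trans ?_, fun j => (k _).trans ?_⟩
  · have := (Frd39.sd_p2 he.cyl (y, 0) (WithLp.toLp 2 fun s => d1 (IC e.Y.I) e.cyl.F.e e.cyl.F.c
      (fun a x => u.1 x.1 a) s.1 s.2 (y, 0))).anti none none
    rw [eq_zero_of_neg_eq this.symm, mul_zero, add_zero, dvg, Fintype.sum_option,
      show dv _ (e.D.Z.e none) _ = 0 from D_none_fst _ (s none)]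
    exact (one_mul _).trans (congrArg (· + _) ((congrArg (· + _) ((zero_add _).trans
      (zero_mul _))).trans ((zero_add _).trans (sum_congr rfl fun k _ => congrArg (· + _)
        (congrFun (D_some_fst _ (s (some k)) k) _)))))
  have hα : e.cyl.Adm ⟨fun a x => u.1 x.1 a, 0⟩ := ⟨fun i => sm_fst (s i), contMDiff_const,
    fun i x => by cases i <;> simp [En3.cyl, Nd18.YD.B, cP, p], fun _ => map_zero _⟩
  have h0 : e.cyl.Adm ⟨0, 0⟩ := ⟨fun _ => contMDiff_const, contMDiff_const, by simp, by simp⟩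
  have a1 := Dl42.eC_split he hα y 0 j
  have a2 := Dl42.eC_split he h0 y 0 j
  rw [eC_red he.cyl hα.sa, show (Dl42.dt (⟨fun a x => u.1 x.1 a, 0⟩ : e.ZC)).a (some j) (y, 0) = 0
    from congrFun (D_none_fst _ (s _)) _] at a1
  rw [show (Dl42.dt (⟨0, 0⟩ : e.ZC)).a (some j) (y, 0) = 0 from congrFun (dv_const (0 : ℝ)) _] at a2
  have z : ∀ i j, d1 e.Y.I e.D.F.e e.D.F.c (fun _ _ => (0 : ℝ)) i j y = 0 := fun i j => by
    simp [d1, dv_const]
  simp only [Pre.D_def, Dl42.Ga, sl, Dl42.qq, map_zero, inner_zero_left, Pi.zero_apply, dv_const, sd,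
    Dl42.st, z, PiLp.add_apply, mul_zero, sum_const_zero] at a1 a2 ⊢
  rw [show e.D.Z.P none (some j) (y, 0) = 0 from rfl]
  linarith

theorem inner_sop (u : Sec e.Y.I (sl0 (hz e r)).p) (y : e.Y.M) (w : V1 (Option κ)) :
    ⟪w, (sop (sl0 (hz e r))).app e.D.F u.1 y⟫_ℝ = (dvg e.Y.I e.D.F.e e.D.F.dv
      (fun k y => u.1 y (some k)) y + r * u.1 y none) * w none + ∑ k, (-e.D.F.D k (fun y => u.1 y none)
        y + sd e (fun k y => u.1 y (some k)) k y / 2) * w (some k) := by
  simp only [inner_fm, Fintype.sum_option, (sop_ap he u y).1, (sop_ap he u y).2, RCLike.inner_apply,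
    conj_trivial]

theorem cyO_hz : CyO e.D.F (sl0 (hz e r)) := by
  have t := tamZ he
  refine ⟨e.Y.dim.le, by rw [cyo_hz]; exact good_hm t (Cb_const r),
    by rw [cyo_hz]; exact cliff_hm t.ok, fun u u' => ?_⟩
  obtain ⟨s, p⟩ := sec_ap u
  obtain ⟨s', p'⟩ := sec_ap u'
  simp only [Pre.ip, real_inner_comm (u'.1 _), inner_sop he]
  refine (((Frd39.nul_gr he (s' none) fun k => s (some k)).add ((Frd39.nul_gr he (s none)
    fun k => s' (some k)).mul (-1))).add ((Dl42.nul_sd he (fun k => s' (some k))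
      (fun k => s (some k)) p' p).mul (1 / 2))).eq (Dl42.ii _ ((((Wz78.sm_dvg fun k => s' (some k)).add
        (contMDiff_const.mul (s' none))).mul (s none)).add fun y => SA.sum _ fun k _ => SA.mul
          ((e.D.F.sm_D (s' none) k y).neg.add ((Es42.sm_sd he (fun k => s' (some k)) k y).div_const 2))
            (s _ y))) fun y => ?_
  simp only [add_mul, sum_add_distrib, neg_mul, sum_neg_distrib, div_mul_eq_mul_div, ← sum_div]
  ring

/-- the slice operator is injective -/
theorem ker_hz (h1 : e.H1) (hr : r ≠ 0) (u : Sec e.Y.I (sl0 (hz e r)).p)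
    (h : (sop (sl0 (hz e r))).app e.D.F u.1 = 0) : u = 0 := by
  obtain ⟨s, p⟩ := sec_ap u
  have k := sop_ap he u
  simp only [h, Pi.zero_apply, PiLp.zero_apply] at k
  have sD := fun k => e.D.F.sm_D (s none) k
  have d := Es42.sq_zero sD (((Dl42.nul_sd he (fun k => s (some k)) sD p fun k y =>
    (Wz78.frm e.D.F).projD k _ y).mul (-1 / 2)).of fun y => by
      simp only [Es42.sd_D (s none), zero_mul, sum_const_zero, zero_sub, mul_neg, mul_sum]
      rw [← sum_neg_distrib]
      exact sum_congr rfl fun j _ => by linear_combination (e.D.F.D j (fun y => u.1 y none) y) * (k y).2 j).zero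
  obtain ⟨ψ, hψ, hD⟩ := h1.ex _ (Es42.clo_of he (fun k => s (some k)) p fun j y => by
    linarith [(k y).2 j, d j y])
  have := openPos e.D.F.toPre
  have c := ((s none).mul (s none)).continuous
  have z := fun y => mul_self_eq_zero.1 (congrFun ((c.ae_eq_iff_eq _ continuous_zero).1
    ((integral_eq_zero_iff_of_nonneg (fun y => mul_self_nonneg _) (Dl42.ii _ ((s none).mul
      (s none)))).1 (((Frd39.nul_gr he (s none) fun k => s (some k)).mul (-r⁻¹)).of fun y => by
        simp only [d, zero_mul, sum_const_zero, add_zero, eq_neg_of_add_eq_zero_left (k y).1.symm]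
        field_simp).zero)) y)
  have a := Es42.sq_zero (fun k => s (some k)) ((Frd39.nul_gr he hψ fun k => s (some k)).of
    fun y => by simp only [eq_neg_of_add_eq_zero_left (k y).1.symm, z, ← hD]; simp).zero
  exact Subtype.ext (funext fun y => fm_ext fun i => by cases i; exacts [z y, a _ y])

end Crest.Agent.X212.Hdg40
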