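import Crest.Agent.X212.Hdg40.Cy
import Crest.Agent.X212.Rad94.Leaf
import Crest.Agent.X212.Rinv39.Main
import Crest.Agent.X212.Ulc97.Main
import Crest.Agent.X212.Prm93.Bk
import Crest.Agent.X212.Pb50.Nk
import Crest.Agent.X212.Sep15.SwB

/-! X212 / RAD-HDG (helper40): `HdgStmt` from GM, FRE, CLO, COK. -/

set_option autoImplicit false
set_option linter.unusedSectionVars false
noncomputable section
open scoped Manifold ContDiff Topology InnerProductSpace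
open MeasureTheory Set Function Filter

namespace Crest.Agent.X212.Hdg40
open An hiding Cfg Pt
open Sob92 Map77 Cyf70 Qab60 Sw Sw.En3 Rad94 Ulc97
open Ell97 hiding pj cut pj_apply
open Num57 (V2 W2 hs hp)
open Op78 (sl0)
open Rinv39 (rh rh_mem)
open M (Mf)

theorem rd_rh : Rd fun _ : Bool => rh 0 := fun _ => ⟨Rinv39.sm_rh 0, fun _ => Rinv39.rh_zero⟩

theorem deriv_rh {t : ℝ} (h : 1 ≤ t) : deriv (rh 0) t = 1 := by
  have h1 : deriv Nd18.fl t = 0 := IsLocalMin.deriv_eq_zero (eventually_of_mem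
    (Ioi_mem_nhds (one_pos.trans_le h)) fun s hs => by
      rw [Nd18.fl_ge h]
      exact mul_nonneg (le_of_lt hs) (sub_nonneg.2 (Real.smoothTransition.le_one _)))
  rw [show rh 0 = id - Nd18.fl from funext fun _ => by simp [rh], deriv_sub differentiableAt_id
    (Nd18.contDiff_fl.differentiable (by simp) _), h1, deriv_id, sub_zero]

variable {κ lam ν : Type} [Fintype κ] [Fintype lam] [Fintype ν] [DecidableEq ν]
  {X : Mf 4} {nc k : ℕ} {e : Bool → En3 κ lam ν} {Z : Pz X nc e} (z : Two Z)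

theorem norm_i2 (v : V2 (Option κ)) : ‖i2 ℝ _ v‖ = ‖v‖ := by
  rw [← sq_eq_sq₀ (norm_nonneg _) (norm_nonneg _), ← real_inner_self_eq_norm_sq, inner2]
  simp

theorem n2_i2 (F : Pre X.I X.M (Option κ)) (μ : Measure X.M) (j : ℕ) : ∀ {f : X.M → F2 κ},
    Sm X.I f → n2 X.I F.e μ j (fun x => i2 ℝ _ (f x)) = n2 X.I F.e μ j f := by
  induction j with
  | zero => exact fun _ => by simp only [n2, norm_i2]
  | succ j ih =>
    intro f hf
    simp only [n2, norm_i2]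
    exact congrArg _ (Finset.sum_congr rfl fun a _ => (congrArg _ (funext fun x =>
      dv_clm _ (md hf x))).trans (ih (F.sm_D hf a)))

/-- the weight -/
def Θ : X.M → ℝ := z.gm.rd fun _ => rh 0

/-- the operator with its limits -/
def L : Lop z.gm (Num57.V1 (Option κ)) (W2 (Option κ)) :=
  ⟨hm Z.bg.F Z.bg.B.o (Z.bg.F.D none (Θ z)), fun s => sl0 (hz (e s) (z.gm.sg s))⟩

theorem DΘ : Z.bg.F.D none (Θ z) = z.gm.rd fun s t => z.gm.sg s * deriv (rh 0) t :=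
  D_rd_none (g := z.gm) rd_rh

theorem cbΘ : Z.bg.F.Cb (Z.bg.F.D none (Θ z)) := by
  obtain ⟨C, hC⟩ := Rinv39.bd_rh
  rw [DΘ]
  exact Cb_rd (g := z.gm) (Rd.deriv rd_rh _) fun s => ⟨_, (Nd18.BD.const _).mul (hC 0)⟩

theorem L_pt (s : Bool) {τ : ℝ} (h : -1 < τ) (y : (e s).Y.M) :
    (L z).A.p (z.gm.pt s τ y) = ((L z).E s).p y ∧ (L z).A.q (z.gm.pt s τ y) = ((L z).E s).q y ∧
    (∀ a, (L z).A.σ a (z.gm.pt s τ y) = ((L z).E s).σ a y) ∧ (Z.bg.F.D none (Θ z) (z.gm.pt s τ y) =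
      z.gm.sg s → (L z).A.B (z.gm.pt s τ y) = ((L z).E s).B y) :=
  have m := mem_src (g := z.gm) h y
  hm_pt (F' := (e s).D.Z) (o' := (e s).D.B.o) (m' := fun _ => z.gm.sg s) (x' := (y, 0))
    (fun a b => (Met55.iso_P (z.K s).iso m a b).symm.trans (by cases a <;> cases b <;> rfl))
    (fun a b c d => (z.K s).o a b c d _ m) (fun a b c => (Met55.iso_c (z.K s).iso m a b c).symm.trans
      (by cases a <;> cases b <;> cases c <;> rfl))
    fun a => (Met55.iso_dv (z.K s).iso m a).symm.trans (by cases a <;> rfl)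

variable {z} (hZ : Z.OK) (hg : z.gm.OK)
include hg

theorem L_B (s : Bool) (τ : ℝ) (y : (e s).Y.M) (h : 1 ≤ τ) :
    (L z).A.B (z.gm.pt s τ y) = ((L z).E s).B y := (L_pt z s (by linarith) y).2.2.2 (by
  rw [DΘ, rd_pt hg (Rd.deriv rd_rh _) (by linarith), deriv_rh h, mul_one])

include hZ

theorem L_ok : (L z).OK :=
  have t := tam hZ.bg X.dim
  ⟨hg, good_hm t (cbΘ z), cliff_hm t.ok, fun s => cyO_hz (hZ.en s),
    fun s _ y h => (L_pt z s h y).1, fun s _ y h => (L_pt z s h y).2.1,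
    fun s _ y a h => (L_pt z s h y).2.2.1 a, fun s _ hδ => ⟨1, fun τ h y => by
      rw [L_B hg s τ y h, sub_self, norm_zero]; exact hδ.le⟩⟩

omit hg in
theorem L_off (h : ∀ s, (e s).H1) : (L z).Off 0 := fun s hs => hs (eq_bot_iff.2 fun u hu =>
  ker_hz (hZ.en s) (h s) (by rcases sg_cases z.gm s with h | h <;> rw [h] <;> norm_num) u (by
    simp only [Lop.Eg, mem_kerS, Op.app, Pi.zero_apply, zero_smul, sub_zero] at hu; exact hu))

/-- the function part of a decaying element of the adjoint kernel vanishes -/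
theorem fn0 {v : X.M → W2 (Option κ)} (hv : Z.bg.F.Cb v) {ε : ℝ} (hε : 0 < ε)
    (hf : z.gm.Fi (fun _ => -ε) v) (h : ((L z).A.adj Z.bg.F).app Z.bg.F v = 0) (x : X.M) :
    f2 _ _ (v x) = 0 := by
  have sv := hv.choose_spec.1
  have sΘ : Sm X.I (Θ z) := sm_rd (g := z.gm) rd_rh
  have := hg.con
  have hi := (memLp_two_iff_integrable_sq_norm sv.continuous.aestronglyMeasurable).1
    ((Rinv39.memLp_iff hg sv.continuous).2 fun s => (hf s).mono' (((contOn_n2 sv.continuous).mono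
      Ioi_sub).aestronglyMeasurable measurableSet_Ioi) ((ae_restrict_mem measurableSet_Ioi).mono
        fun t (ht : 0 < t) => (Real.norm_of_nonneg (n2_nn _ _)).trans_le (le_mul_of_one_le_right
          (n2_nn _ _) (Real.one_le_exp (by nlinarith)))))
  have c := fun y => Kah60.const_on Z.bg.F.toPre isOpen_univ isPreconnected_univ (fun y _ =>
    ⟨md ((Real.contDiff_exp.contMDiff.comp sΘ.neg).mul ((f2 _ _).contMDiff.comp sv)) y, fun i =>
      adj_fn (tam hZ.bg X.dim) sΘ (cbΘ z) (D_rd_some (g := z.gm) rd_rh) (fun x => Finset.sum_nonneg (s := .univ)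
        fun s _ => (rh_mem 0 (z.gm.ht s x)).1) sv hi h i y⟩) (mem_univ x) (mem_univ y)
  obtain ⟨C, hC⟩ := Cb_clm (f2 _ _) hv
  obtain ⟨y⟩ := (hg.cY true).toNonempty
  have : Tendsto (fun τ => Real.exp (-(τ - 0 - 1)) * C 0) atTop (𝓝 (0 * C 0)) :=
    (Real.tendsto_exp_neg_atTop_nhds_zero.comp (tendsto_atTop_add_const_right _ _
      (tendsto_atTop_add_const_right _ _ tendsto_id))).mul_const _
  have := ge_of_tendsto this ((eventually_gt_atTop (-1)).mono fun τ hτ => show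
    ‖Real.exp (-Θ z x) * f2 _ _ (v x)‖ ≤ _ by
      refine (congrArg _ (c (z.gm.pt true τ y))).trans_le ((norm_mul _ _).trans_le (mul_le_mul ?_
        (CB_zero.1 (hC.2 0) _) (norm_nonneg _) (Real.exp_pos _).le))
      rw [Θ, rd_pt hg rd_rh hτ, Real.norm_of_nonneg (Real.exp_pos _).le]
      exact Real.exp_le_exp.2 (neg_le_neg (rh_mem 0 τ).2.2))
  exact (mul_eq_zero.1 (norm_le_zero_iff.1 (this.trans_eq (zero_mul _)))).resolve_left
    (Real.exp_pos _).ne'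

omit hg in
theorem sc_i2 {f : X.M → F2 κ} (hf : SD Z.bg f) :
    Sc (L z).A.q (fun x => i2 ℝ _ (f x)) ∧ Z.bg.F.Cb fun x => i2 ℝ _ (f x) :=
  ⟨⟨(i2 ℝ _).contMDiff.comp hf.1.choose_spec.1, fun x => maps_i2 x _ (by
    rw [← p2_eq hZ.bg]; exact hf.2 x)⟩, Cb_clm _ hf.1⟩

omit hg in
theorem s2_L {u : X.M → Num57.V1 (Option κ)} (hu : Sm X.I u) (x : X.M) :
    s2 _ _ ((L z).A.app Z.bg.F u x) = Z.bg.p2 x (d1 Z.bg (fun i x => u x i) x) := by
  rw [p2_eq hZ.bg]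
  exact (s2_hm (tam hZ.bg X.dim).ok hu x).trans (congrArg _ (fm_ext fun s => dd_apply hu x s))

omit hg in
theorem hdg (alg : Alg Z.bg z.gm) {ϖ : Fin k → X.M → F2 κ} {ε : ℝ} {G S}
    (h : (L z).Rv (fun i x => i2 ℝ _ (ϖ i x)) ε G S) : Hdg Z.bg z.gm ϖ ε
      (fun f i x => G (fun x => i2 ℝ _ (f x)) x i) fun f => S fun x => i2 ℝ _ (f x) := by
  have s := fun f => sc_i2 (z := z) (f := f) hZ
  refine ⟨fun f hf => (alg.vc _).2 ⟨(h.sc _ (s f hf).1 (s f hf).2).2, fun x => ?_⟩, fun f hf x => ?_,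
    fun f f' hf hf' => ?_, h.wt.imp fun C hC f hf => ?_, fun j => (h.ul j).imp fun C hC f r hf hr =>
      hC _ r (s f hf).1 (s f hf).2 ?_⟩
  · rw [p1_eq hZ.bg]; exact (h.sc _ (s f hf).1 (s f hf).2).1.2 x
  · simpa only [map_sub, map_sum, map_smul, s2_i2, s2_L hZ (h.sc _ (s f hf).1 (s f hf).2).1.1] using
      congrArg (s2 _ _) (h.eq _ (s f hf).1 (s f hf).2 x)
  · have := h.sub _ _ (s f hf).1 (s f hf).2 (s f' hf').1 (s f' hf').2
    rw [show (fun x => i2 ℝ _ ((f - f') x)) = (fun x => i2 ℝ _ (f x)) - fun x => i2 ℝ _ (f' x) from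
      funext fun x => map_sub _ _ _, this.1, this.2]
    exact ⟨rfl, rfl⟩
  · refine (hC _ (s f hf).1 (s f hf).2).trans_eq ?_
    simp only [Gm.Q, Gm.q0, Gm.n2, norm_i2]
  · simpa only [Gm.Ul, nS, NS, n2_i2 _ _ _ hf.1.choose_spec.1] using hr

omit hZ hg

/-- **RAD-HDG** -/
theorem hdgStmt (hA : AlgStmt κ lam ν) (hF : FreStmt κ lam) (hClo : CloStmt κ lam ν)
    (hCok : CokStmt κ lam ν) : HdgStmt κ lam ν := by
  intro X nc k e Z z η hz hη hγ hp hn
  obtain ⟨hg, alg⟩ := hA X nc e Z z hz.ok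
  have hb := hz.ok.bg
  have t := tam hb X.dim
  have hL := L_ok hz.ok hg
  refine (Rinv39.rinv κ lam X _ _ _ _ (L z) hL (hF _ _ _ _ _ _ hL) (ulC hg) k
    (fun i x => i2 ℝ _ (Z.bg.p2 x (η i x))) (L_off hz.ok fun s => (hz.en s).h1)
    (fun i => have h := (hz.ϖ i).1
      have s := (sc_i2 (z := z) hz.ok ⟨Cb_of_hcs h.1 h.2.1, h.2.2⟩).1
      ⟨s.1, h.2.1.comp_left (map_zero _), s.2⟩) ?_ (L_B hg)).elim ?_
  swap
  · rintro ε₀ ⟨h0, G, S, hR⟩
    refine ⟨⟨hClo X nc k e Z z η hz.ok hη (fun i => (hz.ϖ i).2) hγ hp, ε₀, h0, _, _,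
      fun ε hε => hdg hz.ok alg (hR ε hε)⟩, ?_⟩
    have s0 : Sm X.I fun x => -Z.bg.eC ⟨0, 0⟩ x := fun x =>
      (Sep15.S.sa_eC hb (fun _ => contMDiffAt_const) contMDiffAt_const).neg
    have c0 : HasCompactSupport fun x => -Z.bg.eC ⟨0, 0⟩ x :=
      .intro (hg.cpt (-1)) fun x hx => by
        obtain ⟨s, hs⟩ := not_forall.1 hx
        obtain ⟨y, hy⟩ := exists_pt (not_le.1 hs)
        rw [← hy, neg_eq_zero]
        exact (Pb50.eC_ψ (z.K s) (mem_src (g := z.gm) (not_le.1 hs) y) _).trans ((hz.en s).red _)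
    have f0 : SD Z.bg fun x => -Z.bg.eC ⟨0, 0⟩ x := ⟨Cb_of_hcs s0 c0, fun x => by
      rw [map_neg, Bg.eC, map_sub, Sw88.p2_p2 hb, hb.omp]; rfl⟩
    have H := hdg hz.ok alg (hR ε₀ ⟨h0, le_rfl⟩)
    refine ⟨S fun x => i2 ℝ _ (-Z.bg.eC ⟨0, 0⟩ x), _, H.a1 _ f0, fun x => ?_, (hR ε₀ ⟨h0, le_rfl⟩).dec _ (sc_i2 hz.ok f0).1
      (c0.comp_left (map_zero _))⟩
    refine (sub_add_eq_sub_sub _ _ _).trans ((congrArg (· - _) (eC_red hb (H.a1 _ f0).1.1 x)).trans ?_)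
    exact (add_sub_assoc _ _ _).trans ((congrArg _ (H.eq _ f0 x)).trans (add_neg_cancel _))
  rintro v hv hc ⟨ε, hε, hf⟩ h1 h2
  have f0 := fn0 hz.ok hg hc hε (hf []) h1
  have p : ∀ x, hs Z.bg.F Z.bg.B.o x (s2 _ _ (v x)) = s2 _ _ (v x) := fun x => maps_s2 x _ (hv.2 x)
  have n : ∀ x, hs Z.bg.F (ng Z.bg.B.o) x (s2 _ _ (v x)) = 0 := fun x => by rw [← p, hs_hs t.ok]
  have := hCok X nc k e Z z η hz.ok hη hn (fun x => s2 _ _ (v x))
    ⟨Cb_clm _ hc, fun x => by rw [p2_eq hb, p]⟩ ⟨ε, hε, fun w => ?_⟩ (fun a ha ca => ?_) fun i => ?_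
  · exact funext fun x => ext2 (f0 x) (congrFun this x)
  · have s := (sm_Dw (F := Z.bg.F.toPre) hv.1 w).continuous
    rw [Prm93.Dw_clm _ w hv.1]
    refine ((ulC hg).le _ _ _ _ (fun x => s2 _ _ (Z.bg.F.Dw w v x)) _ ‖s2 ℝ (V2 (Option κ))‖ s s
      ((s2 _ _).continuous.comp s) (fun x => ?_) (hf w) (hf w)).1
    exact ((s2 ℝ (V2 (Option κ))).le_opNorm (Z.bg.F.Dw w v x)).trans (mul_le_mul_of_nonneg_left
      (le_add_of_nonneg_right (norm_nonneg _)) (ContinuousLinearMap.opNorm_nonneg _))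
  · have s := sm_toLp ha.1
    refine .trans (integral_congr_ae (.of_forall fun x => ?_)) (weak hL.good.choose_spec hv.1 h1
      ⟨vc a, s, ?_, fun x => ?_⟩)
    · beta_reduce
      rw [show idx (Z.bg.B.st x) (ContinuousLinearMap.id ℝ ℝ) = st Z.bg.B.o x from rfl,
        ← hs_sub (F := Z.bg.F), n, sub_zero, inner2, f0, inner_zero_right, zero_add, ← hs_symm t.ok,
        ← p2_eq hb]
      exact congrArg (⟪·, _⟫_ℝ) (s2_L hz.ok s x).symm
    · exact .intro (isCompact_iUnion ca) fun x hx => fm_ext fun i =>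
        image_eq_zero_of_notMem_tsupport (f := a i) fun h => hx (mem_iUnion.2 ⟨i, h⟩)
    · exact (congrArg (fun p => p x (vc a x)) (p1_eq hb)).symm.trans
        (fm_ext (v := vc a x) fun i => (idx_apply _ _ _ _).trans (ha.2 i x))
  · refine .trans (integral_congr_ae (.of_forall fun x => ?_)) (h2 i)
    beta_reduce
    rw [show idx (Z.bg.B.st x) (ContinuousLinearMap.id ℝ ℝ) = st Z.bg.B.o x from rfl,
      ← hs_sub (F := Z.bg.F), inner_sub_right, ← hs_symm t.ok.neg, n, inner2, p2_eq hb]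
    simp

end Crest.Agent.X212.Hdg40
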