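import Crest.Agent.X212.Qab60.Reg
import Crest.Agent.X212.Met55.Mix
import Crest.Agent.X212.Es42.Inv
import Crest.Agent.X212.Frd39.Cy

/-! X212 / RAD-HDG (helper40): the operator `a ↦ (div a + m a₀, d⁺ a)`, its adjoint kernel and its
form on a cylinder. -/

set_option autoImplicit false
set_option linter.unusedSectionVars false
noncomputable section
open scoped Manifold ContDiff Topology InnerProductSpace
open MeasureTheory Function Filter Finset

namespace Crest.Agent.X212.Hdg40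
open An hiding Cfg Pt
open Sob92 Map77 Cyf70 Qab60 Sw Sw.En3
open Ell97 hiding pj cut pj_apply
open Num57 (V1 V2 W2 hop hs hp)
open Wz78 (dvg SA dv_mul)
open Kah60 (gr2)

/-- the mass -/
def mz (κ : Type) [Fintype κ] : V1 (Option κ) →L[ℝ] W2 (Option κ) := i1 ℝ _ ∘L pj ℝ none

section gen
variable {E : Type} [NormedAddCommGroup E] [NormedSpace ℝ E] [FiniteDimensional ℝ E]
  [MeasurableSpace E] [BorelSpace E]
  {HM : Type} [TopologicalSpace HM] {I : ModelWithCorners ℝ E HM} [I.Boundaryless]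
  {M : Type} [TopologicalSpace M] [ChartedSpace HM M] [IsManifold I ∞ M] [T2Space M]
  [MeasurableSpace M] [BorelSpace M] [SecondCountableTopology M] {ι κ : Type} [Fintype ι] [Fintype κ]

/-- the weak form of the adjoint equation -/
theorem weak {V W : Type} [NormedAddCommGroup V] [InnerProductSpace ℝ V] [NormedAddCommGroup W]
    [InnerProductSpace ℝ W] [FiniteDimensional ℝ V] [FiniteDimensional ℝ W] {F : Fr I M ι}
    {A : Op M ι V W} {C : ℕ → ℝ} (h : A.Good F C) {v : M → W} (hv : Sm I v)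
    (h0 : (A.adj F).app F v = 0) (u : Sec I A.p) : ∫ x, ⟪A.app F u.1 x, v x⟫_ℝ ∂F.μ = 0 := by
  obtain ⟨χ, s, c, -, -, e⟩ := Met55.exists_cut (I := I) u.2.2.1.isCompact isOpen_univ
    (Set.subset_univ _)
  refine Eq.trans (integral_congr_ae (.of_forall fun x => ?_)) ((adj_ip h u (tst (fun y => χ y • v y)
    (s.smul hv) c.smul_right)).trans (integral_eq_zero_of_ae (.of_forall fun x => ?_)))
  · by_cases hx : x ∈ tsupport u.1
    · simp [tst, (e x hx).self_of_nhds]
    · have k := notMem_tsupport_iff_eventuallyEq.1 hx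
      simp [Op.app, Pre.op, Pre.D_def, dv_congr k, k.self_of_nhds]
  · by_cases hx : x ∈ tsupport u.1
    · have k : (fun y => χ y • v y) =ᶠ[𝓝 x] v := (e x hx).mono fun y hy => by simp [hy]
      have := congrFun h0 x
      simp only [tst, Op.app, Pre.op, Pre.D_def, dv_congr k, k.self_of_nhds] at this ⊢
      simp [this]
    · simp [image_eq_zero_of_notMem_tsupport hx]

/-- weak solutions of `div (ρ dk) = 0` of finite weighted norm are constant -/
theorem liou {F : Fr I M ι} {C : ℕ → ℝ} (hC : F.Tame C) {ρ k : M → ℝ} (sρ : Sm I ρ)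
    (ρ0 : ∀ x, 0 < ρ x) (sk : Sm I k) (hi : Integrable (fun x => ρ x * (k x * k x)) F.μ)
    (h : ∀ φ, Sm I φ → HasCompactSupport φ → ∫ x, ∑ i, ρ x * F.D i k x * F.D i φ x ∂F.μ = 0)
    (i : ι) (x : M) : F.D i k x = 0 := by
  have := Int54.sigmaCompact (I := I) M
  have := Manifold.locallyCompact_of_finiteDimensional (M := M) I
  have := openPos F.toPre
  let K := CompactExhaustion.choice M
  choose χ h1 h2 _ h4 using fun n => hC.exh (K n) (K.isCompact n)
  have ev : ∀ x, ∃ O ∈ 𝓝 x, ∀ᶠ n in atTop, ∀ y ∈ O, χ n =ᶠ[𝓝 y] fun _ => 1 := fun x => by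
    obtain ⟨n, hn⟩ := K.exists_mem_nhds x
    exact ⟨_, interior_mem_nhds.2 hn, (eventually_ge_atTop n).mono fun m hm y hy =>
      eventually_of_mem (mem_interior_iff_mem_nhds.1 hy) fun z hz => h4 m z (K.subset hm hz)⟩
  have s1 : ∀ n, Sm I fun y => χ n y * k y := fun n => (h1 n).1.mul sk
  have c1 : ∀ n, HasCompactSupport (gr2 F.toPre fun y => χ n y * k y) := fun n =>
    Kah60.hcs_of_sub (h2 n).mul_right (Kah60.tsupport_gr2 _ _)
  have s3 : ∀ n, Sm I fun y => gr2 F.toPre (χ n) y * (ρ y * (k y * k y)) := fun n =>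
    (Kah60.sm_gr2 _ (h1 n).1).mul (sρ.mul (sk.mul sk))
  have lim := tendsto_integral_of_dominated_convergence (f := fun _ => (0 : ℝ)) _
    (fun n => (s3 n).continuous.aestronglyMeasurable) (hi.norm.const_mul (∑ _i : ι, C 1 * C 1))
    (fun n => .of_forall fun y => by
      rw [norm_mul]
      refine mul_le_mul_of_nonneg_right ((norm_sum_le _ _).trans (sum_le_sum fun a _ => ?_))
        (norm_nonneg _)
      have := CB_zero.1 (CB_D ((h1 n).2 1) a) y
      exact (norm_mul _ _).trans_le (mul_self_le_mul_self (norm_nonneg _) this))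
    (.of_forall fun y => let ⟨_, hO, e⟩ := ev y; tendsto_const_nhds.congr' (e.mono fun n hn => by
      simp [gr2, Pre.D_def, dv_congr (hn y (mem_of_mem_nhds hO))]))
  rw [integral_zero] at lim
  obtain ⟨O, hO, e⟩ := ev x
  have := Kah60.zero_of_tendsto (μ := F.μ) (G := fun n y => ρ y * gr2 F.toPre (fun y => χ n y * k y) y)
    (g := fun y => ρ y * gr2 F.toPre k y) (fun n => (sρ.mul (Kah60.sm_gr2 _ (s1 n))).continuous)
    (fun n => (c1 n).mul_left) (fun n y => mul_nonneg (ρ0 y).le (Kah60.gr2_nonneg _ _ _)) lim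
    (fun n => le_of_eq ?_) hO (e.mono fun n hn y hy => by
      simp only [gr2, Pre.D_def, dv_congr (show (fun y => χ n y * k y) =ᶠ[𝓝 y] k from
        (hn y hy).mono fun z hz => by simp [hz])])
  · exact mul_self_eq_zero.1 ((sum_eq_zero_iff_of_nonneg fun a _ => mul_self_nonneg _).1
      ((mul_eq_zero.1 this).resolve_left (ρ0 x).ne') i (mem_univ i))
  have s2 : Sm I fun y => χ n y * (χ n y * k y) := (h1 n).1.mul (s1 n)
  refine (Dl42.Nul.mk (integrable_finsetSum _ fun a _ => Wz78.integ ((sρ.mul (F.sm_D sk a)).mul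
    (F.sm_D s2 a)) (F.hcs_D (h2 n).mul_right a).mul_left) (h _ s2 (h2 n).mul_right)).eq
    (Wz78.integ (s3 n) (Kah60.hcs_of_sub (h2 n) (Kah60.tsupport_gr2 _ _)).mul_right) fun y => ?_
  simp only [gr2, Pre.D_def, dv_mul ((h1 n).1 y) (s1 n y), dv_mul ((h1 n).1 y) (sk y), mul_sum,
    sum_mul, ← sum_add_distrib, Pi.mul_apply]
  exact sum_congr rfl fun a _ => by ring

variable (F : Fr I M (Option κ)) (o : Option κ → Option κ → Option κ → Option κ → M → ℝ) (m : M → ℝ)

/-- **the operator** -/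
def hm : Op M (Option κ) (V1 (Option κ)) (W2 (Option κ)) := addB (hop F o) fun x => m x • mz κ

variable {F o m} {u : M → V1 (Option κ)}

theorem f2_hm (hu : Sm I u) (x : M) : f2 _ _ ((hm F o m).app F u x) =
    dvg I F.e F.dv (fun a y => u y a) x + m x * u x none := by
  rw [← Num57.f2_app (o := o) hu, hm, Op.app, op_addB, map_add]
  exact congrArg _ (by simp [hop, mz])

theorem s2_hm (h : Num57.OK F o) (hu : Sm I u) (x : M) :
    s2 _ _ ((hm F o m).app F u x) = hs F o x (dd F u x) := by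
  rw [← hs_dd h hu, hm, Op.app, op_addB, map_add]
  exact add_eq_left.2 (by simp [hop, mz])

theorem good_hm (h : Tam F o) (hb : F.Cb m) : ∃ C, (hm F o m).Good F C := by
  obtain ⟨C, hC, hA⟩ := h.good
  let K := cb (fun _ : Unit => F.toPre) Set.univ
  have := Cls.op.addB (K := K) (A := fun _ => hop F o) ⟨fun _ _ => ⟨C, hA.p.cb⟩,
    fun _ _ => ⟨C, hA.q.cb⟩, fun a _ _ => ⟨C, hA.σ a⟩, fun _ _ => ⟨C, hA.B⟩⟩
    (Cls.smul (f := fun _ => m) (fun _ _ => hb) (K.const (mz κ)))
  exact (good_of hC (this.p () trivial) (this.q () trivial) (fun a => this.σ a () trivial)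
    (this.B () trivial) h.ok.alg.addB).imp fun _ h => h.2

theorem hm_pt {E' : Type} [NormedAddCommGroup E'] [NormedSpace ℝ E'] [FiniteDimensional ℝ E']
    [MeasurableSpace E'] [BorelSpace E'] {HM' : Type} [TopologicalSpace HM']
    {I' : ModelWithCorners ℝ E' HM'} {M' : Type} [TopologicalSpace M'] [ChartedSpace HM' M']
    [IsManifold I' ∞ M'] [MeasurableSpace M'] {F' : Fr I' M' (Option κ)}
    {o' : Option κ → Option κ → Option κ → Option κ → M' → ℝ} {m' : M' → ℝ} {x : M} {x' : M'}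
    (hP : ∀ a b, F.P a b x = F'.P a b x') (ho : ∀ a b c d, o a b c d x = o' a b c d x')
    (hc : ∀ a b k, F.c a b k x = F'.c a b k x') (hd : ∀ a, F.dv a x = F'.dv a x') :
    (hm F o m).p x = (hm F' o' m').p x' ∧ (hm F o m).q x = (hm F' o' m').q x' ∧
      (∀ a, (hm F o m).σ a x = (hm F' o' m').σ a x') ∧
      (m x = m' x' → (hm F o m).B x = (hm F' o' m').B x') := by
  refine ⟨?_, ?_, fun a => ?_, fun h => ?_⟩ <;>
    simp only [hm, addB, hop, hp, hs, ps, triv, *]

theorem cliff_hm (h : Num57.OK F o) : (hm F o m).Cliff F :=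
  ⟨fun a b x v w => h.cliff.1 a b x v w, fun a b x v w => h.cliff.2 a b x v w⟩

theorem tr_σ (h : Num57.OK F o) (a : Option κ) (x : M) (w : W2 (Option κ)) (c : Option κ) :
    Op.tr ((hm F o m).σ a x) w c = F.P a c x * f2 _ _ w + 2 * hs F o x (s2 _ _ w) (a, c) :=
  Num57.tr_hσ (h.vo x) _ _ _

/-- gradients -/
def gd (F : Fr I M ι) (φ : M → ℝ) : M → V1 ι := c1 F (Dr59.df I φ)

theorem gd_ap {F : Fr I M ι} (φ : M → ℝ) (x : M) (i : ι) : gd F φ x i = F.D i φ x := c1_df φ x i

theorem sm_gd {F : Fr I M ι} {φ : M → ℝ} (h : Sm I φ) : Sm I (gd F φ) := sm_c1 (fo_df h).sm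

theorem dd_gd {F : Fr I M ι} {φ : M → ℝ} (h : Sm I φ) : dd F (gd F φ) = 0 := by
  rw [gd, dd_c1 (fo_df h), d_df h, c2_zero]

/-- the function part of an element of the adjoint kernel -/
theorem adj_fn (h : Tam F o) {Θ : M → ℝ} (sΘ : Sm I Θ) (hb : F.Cb (F.D none Θ))
    (h0 : ∀ a, F.D (some a) Θ = 0) (Θ0 : ∀ x, 0 ≤ Θ x) {v : M → W2 (Option κ)} (hv : Sm I v)
    (hi : Integrable (fun x => ‖v x‖ ^ 2) F.μ)
    (he : ((hm F o (F.D none Θ)).adj F).app F v = 0) (i : Option κ) (x : M) :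
    F.D i (fun y => Real.exp (-Θ y) * f2 _ _ (v y)) x = 0 := by
  obtain ⟨C, hA⟩ := good_hm h hb
  have sf : Sm I fun y => f2 _ _ (v y) := (f2 _ _).contMDiff.comp hv
  have sk : Sm I fun y => Real.exp (-Θ y) * f2 _ _ (v y) :=
    (Real.contDiff_exp.contMDiff.comp sΘ.neg).mul sf
  have se : ∀ {f : M → ℝ}, Sm I f → Sm I fun y => Real.exp (f y) := fun hf =>
    Real.contDiff_exp.contMDiff.comp hf
  have ee : ∀ y, Real.exp (Θ y) * Real.exp (-Θ y) = 1 := fun y => by rw [← Real.exp_add]; simp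
  refine liou h.tm.choose_spec (se sΘ) (fun _ => Real.exp_pos _) sk
    (hi.mono' ((se sΘ).mul (sk.mul sk)).continuous.aestronglyMeasurable
      (.of_forall fun y => ?_)) (fun φ s c => ?_) i x
  · have k := inner2 (v y) (v y)
    have k1 : Real.exp (-Θ y) ≤ 1 := Real.exp_le_one_iff.2 (neg_nonpos.2 (Θ0 y))
    rw [real_inner_self_eq_norm_sq] at k
    rw [show ∀ a b c : ℝ, a * (b * c * (b * c)) = a * b * (b * (c * c)) from fun _ _ _ => by ring, ee,
      one_mul, Real.norm_of_nonneg (mul_nonneg (Real.exp_pos _).le (mul_self_nonneg _)), k]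
    exact (mul_le_of_le_one_left (mul_self_nonneg _) k1).trans
      (le_add_of_nonneg_right real_inner_self_nonneg)
  have c' := hcs_c1 (F := F) (hcs_df (I := I) c)
  have k := weak hA hv he ⟨gd F φ, sm_gd s, c', hp_c1 _⟩
  have sD := fun i => sf.mul (F.sm_D s i)
  have cD := fun i => (F.hcs_D c i).mul_left (f := fun y => f2 _ _ (v y))
  refine neg_eq_zero.1 ((integral_neg _).symm.trans (.trans (Eq.symm ?_) k))
  refine (Dl42.Nul.mk (Wz78.integ_dvg sD cD) (Wz78.integral_dvg sD cD)).eq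
    (integrable_finsetSum _ (fun a _ => Wz78.integ (((se sΘ).mul (F.sm_D sk a)).mul
      (F.sm_D s a)) (F.hcs_D c a).mul_left)).neg fun y => ?_
  have e2 : ∀ a, Real.exp (Θ y) * F.D a (fun y => Real.exp (-Θ y) * f2 _ _ (v y)) y =
      F.D a (fun y => f2 _ _ (v y)) y - f2 _ _ (v y) * F.D a Θ y := fun a => by
    rw [Pre.D_def, dv_mul (se sΘ.neg y) (sf y), Kah60.dv_exp (md sΘ.neg y),
      show dv I (F.e a) (fun x => -Θ x) y = _ from dv_neg _ _]
    simp only [Pre.D_def]
    linear_combination (dv I (F.e a) (fun y => f2 _ _ (v y)) y -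
      f2 _ _ (v y) * dv I (F.e a) Θ y) * ee y
  have e3 : F.D none Θ y * F.D none φ y = ∑ a, F.D a Θ y * F.D a φ y := by simp [h0]
  have e4 : ∀ a, dv I (F.e a) ((fun y => f2 _ _ (v y)) * F.D a φ) y = _ := fun a =>
    dv_mul (sf y) (F.sm_D s a y)
  rw [inner2, f2_hm (sm_gd s), s2_hm h.ok (sm_gd s), dd_gd s]
  simp only [gd_ap, e2, e3, e4, dvg, Pi.zero_apply, map_zero, inner_zero_left, add_zero,
    RCLike.inner_apply, conj_trivial, mul_sum, ← sum_add_distrib, ← sum_neg_distrib, Pi.mul_apply]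
  exact sum_congr rfl fun a _ => by simp only [Pre.D_def]; ring

end gen

end Crest.Agent.X212.Hdg40
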